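import Vale.Agent.P330.H800.Tab
import Vale.Agent.Lib.PolyTime.Machine
import Vale.Agent.Lib.PolyTime.Bitwise
import Vale.Agent.Lib.PolyTime.Unary

/-!
# Polynomial time functions of `k` words are computed by tableaux
-/

namespace Vale.Agent.P330.H800

open Function Vale.Agent.Lib.PolyTime Vale.Agent.Lib.PolyTime.ToTM2

variable {A : Set Word}

/-! ### Collecting the inputs -/

/-- Collects the stacks `0, …, d - 1` on the stack `K`, as nested pairs. -/
def mergeP (K : ℕ) : ℕ → Prog
  | 0 => .skip
  | d + 1 => .seq (.seq (.push K false) (.seq (.mv d (K + 1)) (.mvd (K + 1) K))) (mergeP K d)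

/-- nested pairs -/
def nest (σ : ℕ → Word) (w : Word) : ℕ → Word
  | 0 => w
  | d + 1 => nest σ (pr (σ d) w) d

theorem nest_congr {σ σ' : ℕ → Word} {w : Word} {d : ℕ} (h : ∀ i < d, σ i = σ' i) :
    nest σ w d = nest σ' w d := by
  induction d generalizing w with
  | zero => rfl
  | succ d ih =>
    show nest σ (pr (σ d) w) d = nest σ' (pr (σ' d) w) d
    rw [h d (by omega), ih fun i hi => h i (by omega)]

theorem nest_length {σ : ℕ → Word} {m : ℕ} (w : Word) {d : ℕ} (h : ∀ i < d, (σ i).length ≤ m) :
    (nest σ w d).length ≤ w.length + d * (2 * m + 1) := by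
  induction d generalizing w with
  | zero => simp [nest]
  | succ d ih =>
    refine (ih _ fun i hi => h i (by omega)).trans ?_
    rw [length_pr]
    have := h d (by omega)
    nlinarith

theorem runs_mergeP {K d : ℕ} (hd : d ≤ K) (s : ℕ → Word) {m : ℕ} (hm : ∀ i < d, (s i).length ≤ m)
    (ht : s (K + 1) = []) :
    ∃ s' : ℕ → Word, Runs A (mergeP K d) s (d * (9 * m + 3) + 1) s' ∧ s' K = nest s (s K) d ∧
      (∀ i < d, s' i = []) ∧ ∀ i, d ≤ i → i ≠ K → s' i = s i := by
  induction d generalizing s with
  | zero =>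
    exact ⟨s, Runs.skip.mono (by omega), rfl, fun i hi => by omega, fun _ _ _ => rfl⟩
  | succ d ih =>
    have hdK : d ≠ K := by omega
    have hdK1 : d ≠ K + 1 := by omega
    -- push
    have r1 := Runs.push (A := A) (s := s) K false
    set s1 := update s K (false :: s K) with hs1
    have r2 := Runs.mv (A := A) (s := s1) (i := d) (j := K + 1) hdK1
    set s2 := update (update s1 d []) (K + 1) ((s1 d).reverse ++ s1 (K + 1)) with hs2
    have r3 := Runs.mvd (A := A) (s := s2) (k := K + 1) (j := K) (by omega)
    set s3 := update (update s2 (K + 1) []) K (dbl (s2 (K + 1)).reverse ++ s2 K) with hs3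
    have e1 : s1 d = s d := by rw [hs1, update_of_ne hdK]
    have e2 : s1 (K + 1) = [] := by rw [hs1, update_of_ne (by omega), ht]
    have e3 : s2 (K + 1) = (s d).reverse := by rw [hs2, update_self, e1, e2, List.append_nil]
    have e4 : s2 K = false :: s K := by
      rw [hs2, update_of_ne (by omega), update_of_ne hdK.symm, hs1, update_self]
    have e5 : s3 K = pr (s d) (s K) := by
      rw [hs3, update_self, e3, e4, List.reverse_reverse, ← pr_eq]
    have e6 : s3 (K + 1) = [] := by
      rw [hs3, update_of_ne (by omega), update_self]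
    have e7 : s3 d = [] := by
      rw [hs3, update_of_ne hdK, update_of_ne hdK1, hs2, update_of_ne hdK1, update_self]
    have e8 : ∀ i, i ≠ K → i ≠ K + 1 → i ≠ d → s3 i = s i := by
      intro i h1 h2 h3
      rw [hs3, update_of_ne h1, update_of_ne h2, hs2, update_of_ne h2, update_of_ne h3, hs1,
        update_of_ne h1]
    have hm3 : ∀ i < d, (s3 i).length ≤ m := fun i hi => by
      rw [e8 i (by omega) (by omega) (by omega)]; exact hm i (by omega)
    obtain ⟨s', r4, f1, f2, f3⟩ := ih (by omega) s3 hm3 e6
    have r5 := (r1.seq (r2.seq r3)).seq r4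
    refine ⟨s', r5.mono ?_, ?_, ?_, ?_⟩
    · have h1 := hm d (by omega)
      rw [e1, e3, List.length_reverse]
      nlinarith
    · rw [f1, e5]
      show nest s3 (pr (s d) (s K)) d = nest s (pr (s d) (s K)) d
      exact nest_congr fun i hi => e8 i (by omega) (by omega) (by omega)
    · intro i hi
      rcases Nat.lt_or_ge i d with h | h
      · exact f2 i h
      · have : i = d := by omega
        subst this
        rw [f3 i le_rfl hdK, e7]
    · intro i h1 h2
      rw [f3 i (by omega) h2]
      by_cases h3 : i = K + 1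
      · subst h3; rw [e6, ht]
      · exact e8 i h2 h3 (by omega)

/-- The words on the stacks, as a list of raw words. -/
theorem nest_eq {k : ℕ} (s : Fin k → Word) :
    nest (mem s) [] k = enc ((List.ofFn s).map Raw.mk) := by
  have key : ∀ (d : ℕ) (w : Word) (l : List Raw), w = encList l → ∀ σ : ℕ → Word,
      nest σ w d = encList (((List.range d).map fun i => Raw.mk (σ i)) ++ l) := by
    intro d
    induction d with
    | zero => intro w l hw σ; simpa [nest] using hw
    | succ d ih =>
      intro w l hw σ
      show nest σ (pr (σ d) w) d = _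
      rw [ih (pr (σ d) w) (Raw.mk (σ d) :: l) (by rw [hw]; rfl) σ]
      rw [List.range_succ, List.map_append, List.append_assoc]
      rfl
  rw [key k [] [] rfl]
  show _ = encList _
  congr 1
  rw [List.append_nil]
  apply List.ext_getElem
  · simp
  · intro i h1 h2
    simp only [List.length_map, List.length_range] at h1
    simp [mem, h1]

/-- **Polynomial time functions of `k` words are computed by tableaux.**  The functions get the
list of the `k` words. -/
theorem exists_tab_raw {F : List Raw → Raw} (hF : PT ∅ F) (k : ℕ) :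
    ∃ (τ : Tab k) (c : ℕ), ∀ (s : Fin k → Word) (m W t : ℕ), (∀ d, (s d).length ≤ m) →
      pb c m ≤ W → pb c m ≤ t → ∀ i,
        τ.out (τ.fill W (fun d i => (s d)[i]?) t i) = (F ((List.ofFn s).map Raw.mk)).w[i]? := by
  obtain ⟨g, hg, hgF⟩ := hF
  obtain ⟨p, w, c, hw, hl, hr⟩ := hg.elim
  -- the program: collect the inputs on the stack `k + 1`, run `p` with the output on the stack
  -- `0`
  set K := k + 1 with hK
  set q : Prog := .seq (mergeP K k) (p.rename (rel K 0 K)) with hq
  obtain ⟨M₀, hM₀⟩ := exists_bounded q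
  set M := M₀ + 1 with hM
  have hb : bounded M q := bounded_mono (by omega) hM₀
  set T : ℕ → ℕ := fun m => k * (9 * m + 3) + 1 + pb c (k * (2 * m + 1)) with hT
  have hTB : PB (fun m => m + 2 * T m) :=
    PB.id.add ((PB.const 2).mul (((((PB.const k).mul (((PB.const 9).mul PB.id).add
      (PB.const 3))).add (PB.const 1)).add ((PB.pb c).comp ((PB.const k).mul
        (((PB.const 2).mul PB.id).add (PB.const 1)))))))
  obtain ⟨c', hc'⟩ := hTB
  refine ⟨tabOf M q k (by omega), c', fun s m W t hm hW ht i => ?_⟩
  have hc1 : m + 2 * T m ≤ pb c' m := hc' m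
  -- run of the program
  have hmem : ∀ j, (mem s j).length ≤ m := by
    intro j
    unfold mem
    split_ifs with h
    · exact hm _
    · simp
  have h0 : ∀ j, k ≤ j → mem s j = [] := fun j hj => by
    unfold mem
    rw [dif_neg (by omega)]
  obtain ⟨s', r1, f1, f2, f3⟩ := runs_mergeP (A := ∅) (K := K) (d := k) (by omega) (mem s)
    (fun i _ => hmem i) (h0 _ (by omega))
  rw [h0 K (by omega)] at f1
  have f1' : s' K = enc ((List.ofFn s).map Raw.mk) := by rw [f1, nest_eq]
  have hs0 : s' 0 = [] := by
    rcases Nat.eq_zero_or_pos k with h | h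
    · rw [f3 0 (by omega) (by omega), h0 0 (by omega)]
    · exact f2 0 h
  have r2 := hr K 0 K (by omega) (by omega) (by omega) s' hs0
    (fun i h1 h2 => by rw [f3 i (by omega) (by omega), h0 i (by omega)])
  have hlen : (s' K).length ≤ k * (2 * m + 1) := by
    rw [f1]
    have := nest_length (σ := mem s) (m := m) [] (d := k) fun i _ => hmem i
    simpa using this
  have r3 := (r1.seq r2).mono (show _ ≤ T m from by
    show _ ≤ k * (9 * m + 3) + 1 + pb c (k * (2 * m + 1))
    exact Nat.add_le_add_left (pb_mono c hlen) _)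
  have := out_eq (p := q) (M := M) (by omega) hb s hm r3 (W := W) (t := t) (i := i)
    (by omega) (by omega)
  rw [this, update_self, f1', hgF]
  rfl

/-- The same for functions of lists of Booleans. -/
theorem exists_tab {F : List (List Bool) → List Bool} (hF : PT ∅ F) (k : ℕ) :
    ∃ (τ : Tab k) (c : ℕ), ∀ (s : Fin k → List Bool) (m W t : ℕ), (∀ d, (s d).length ≤ m) →
      pb c m ≤ W → pb c m ≤ t → ∀ i,
        τ.out (τ.fill W (fun d i => (s d)[i]?) t i) = (F (List.ofFn s))[i]? := by
  have h1 : PT ∅ (fun l : List Raw => l.map fun r => (r.w : List Bool)) :=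
    PT.map (f := fun (_ : List Raw) (r : Raw) => (r.w : List Bool)) PT.id (PT.listOfRaw PT.snd')
  have h2 : PT ∅ (fun l : List Raw => Raw.mk (F (l.map fun r => (r.w : List Bool)))) :=
    PT.rawOfList (hF.comp h1)
  obtain ⟨τ, c, h⟩ := exists_tab_raw h2 k
  refine ⟨τ, c, fun s m W t hm hW ht i => ?_⟩
  rw [h s m W t hm hW ht i, List.map_map]
  congr 3
  have : ((fun r : Raw => (r.w : List Bool)) ∘ Raw.mk) = id := rfl
  rw [this, List.map_id]

end Vale.Agent.P330.H800
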