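import Vale.Agent.P330.H800.Tab

/-!
# Tableaux as linear arrays

`τ.lin W inp p` is the content of the position `p = t W + i` of the tableau with rows of width
`W`.  It is computed from the positions `p - 1`, `p - W - 1`, `p - W`, `p - W + 1`; at the ends of
the rows the wrong neighbours do not matter.
-/

namespace Vale.Agent.P330.H800

variable {k : ℕ} (τ : Tab k)

/-- Content of the position `p` of the linear array. -/
def Tab.lin (W : ℕ) (inp : Fin k → ℕ → Option Bool) (p : ℕ) : τ.A :=
  τ.fill W inp (p / W) (p % W)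

theorem Tab.lin_zero {W p : ℕ} (inp : Fin k → ℕ → Option Bool) (hp : p < W) :
    τ.lin W inp p = τ.init (decide (p = 0)) fun d => inp d p := by
  unfold Tab.lin
  rw [Nat.div_eq_of_lt hp, Nat.mod_eq_of_lt hp]
  rfl

theorem Tab.lin_add {W : ℕ} (hW : 0 < W) (inp : Fin k → ℕ → Option Bool) (t i : ℕ) (hi : i < W) :
    τ.lin W inp (t * W + i) = τ.fill W inp t i := by
  unfold Tab.lin
  rw [Nat.add_comm, Nat.add_mul_div_right _ _ hW, Nat.div_eq_of_lt hi, Nat.zero_add,
    Nat.add_mul_mod_self_right, Nat.mod_eq_of_lt hi]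

/-- The recursion for the linear array.  `l`, `ul`, `u`, `ur` are the contents of the positions
`p - 1`, `p - W - 1`, `p - W`, `p - W + 1`. -/
theorem Tab.lin_rec {W p : ℕ} (hW : 0 < W) (inp : Fin k → ℕ → Option Bool) (hp : W ≤ p)
    {l ul u ur : τ.A} (hl : l = τ.lin W inp (p - 1)) (hul : W + 1 ≤ p → ul = τ.lin W inp (p - W - 1))
    (hu : u = τ.lin W inp (p - W)) (hur : p % W + 1 ≠ W → ur = τ.lin W inp (p - W + 1)) :
    τ.lin W inp p = τ.rule (decide (p % W = 0)) (decide (p % W + 1 = W)) l ul u ur := by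
  obtain ⟨t, ht⟩ : ∃ t, p / W = t + 1 := ⟨p / W - 1, by
    have := Nat.div_pos hp hW; omega⟩
  set i := p % W with hi
  have hiW : i < W := Nat.mod_lt _ hW
  have hpe : p = (t + 1) * W + i := by
    rw [hi, ← ht, Nat.mul_comm]; exact (Nat.div_add_mod p W).symm
  have h1 : p - W = t * W + i := by rw [hpe, Nat.succ_mul]; omega
  have e0 : τ.lin W inp p = τ.fill W inp (t + 1) i := by rw [hpe, τ.lin_add hW inp _ _ hiW]
  have eu : u = τ.fill W inp t i := by rw [hu, h1, τ.lin_add hW inp _ _ hiW]
  have eur : i + 1 ≠ W → ur = τ.fill W inp t (i + 1) := fun h => by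
    rw [hur h, h1, Nat.add_assoc, τ.lin_add hW inp _ _ (by omega)]
  rw [e0]
  clear_value i
  rcases Nat.eq_zero_or_pos i with h0 | h0
  · show τ.row W (τ.fill W inp t) i = _
    rw [h0]
    show τ.rule true (decide (1 = W)) _ _ _ _ = _
    have e1 : decide ((0 : ℕ) = 0) = true := rfl
    rw [Nat.zero_add, e1]
    rw [h0] at eu
    by_cases h1 : 1 = W
    · rw [decide_eq_true h1]
      rw [τ.rule_last true (τ.fill W inp t 0) (τ.fill W inp t 0) (τ.fill W inp t 0)
        (τ.fill W inp t 1) ur]
      rw [← eu]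
      exact τ.rule_first _ _ _ _ _ _ _
    · rw [decide_eq_false h1]
      have := eur (by omega)
      rw [h0] at this
      rw [this, ← eu]
      exact τ.rule_first _ _ _ _ _ _ _
  · obtain ⟨j, rfl⟩ : ∃ j, i = j + 1 := ⟨i - 1, by omega⟩
    have el : l = τ.fill W inp (t + 1) j := by
      rw [hl, hpe, show (t + 1) * W + (j + 1) - 1 = (t + 1) * W + j by omega,
        τ.lin_add hW inp _ _ (by omega)]
    have eul : ul = τ.fill W inp t j := by
      rw [hul (by rw [hpe, Nat.succ_mul]; omega), h1,
        show t * W + (j + 1) - 1 = t * W + j by omega, τ.lin_add hW inp _ _ (by omega)]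
    have e1 : decide (j + 1 = 0) = false := rfl
    rw [e1]
    show τ.rule false (decide (j + 2 = W)) (τ.fill W inp (t + 1) j) (τ.fill W inp t j)
      (τ.fill W inp t (j + 1)) (τ.fill W inp t (j + 2)) = _
    rw [el, eul, eu]
    by_cases h1 : j + 2 = W
    · have h2 : decide (j + 1 + 1 = W) = true := decide_eq_true h1
      rw [h2]
      exact τ.rule_last _ _ _ _ _ _
    · have h2 : decide (j + 1 + 1 = W) = false := decide_eq_false h1
      rw [h2, eur (by omega)]

end Vale.Agent.P330.H800
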