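import Vale.Agent.Lib.PolyTime.TM2

/-!
# Small step semantics of the stack programs

`step (ks, s)` performs one elementary action of the program with the continuation `ks` in the
memory `s`.  The continuations which occur form a finite set.
-/

namespace Vale.Agent.P330.H800

open Function Vale.Agent.Lib.PolyTime Vale.Agent.Lib.PolyTime.ToTM2

/-- Action on the memory: nothing, pop (`none`) or push of a bit on a stack. -/
abbrev Act : Type := Option (ℕ × Option Bool)

/-- The next continuation and the action, given the tops of the stacks. -/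
def nx (top : ℕ → Option Bool) : List Prog → List Prog × Act
  | [] => ([], none)
  | .skip :: ks => (ks, none)
  | .push i b :: ks => (ks, some (i, some b))
  | .pop i :: ks => (ks, some (i, none))
  | .query _ j :: ks => (ks, some (j, some false))
  | .seq p q :: ks => (p :: q :: ks, none)
  | .ite i p q r :: ks => ((match top i with
      | none => p :: ks
      | some false => q :: ks
      | some true => r :: ks), none)
  | .loop i p :: ks => ((match top i with
      | none => ks
      | some _ => p :: .loop i p :: ks), none)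

/-- The action on the memory. -/
def app : Act → (ℕ → Word) → ℕ → Word
  | none, s => s
  | some (i, none), s => update s i (s i).tail
  | some (i, some b), s => update s i (b :: s i)

/-- One step. -/
def step (c : List Prog × (ℕ → Word)) : List Prog × (ℕ → Word) :=
  ((nx (fun i => (c.2 i).head?) c.1).1, app (nx (fun i => (c.2 i).head?) c.1).2 c.2)

theorem step_nil (s : ℕ → Word) : step ([], s) = ([], s) := rfl

theorem iter_nil (n : ℕ) (s : ℕ → Word) : step^[n] ([], s) = ([], s) :=
  Function.iterate_fixed (step_nil s) n

theorem sim {p : Prog} {s s' : ℕ → Word} {t : ℕ} (h : Eval ∅ p s t s') (ks : List Prog) :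
    ∃ n, n ≤ 2 * t ∧ step^[n] (p :: ks, s) = (ks, s') := by
  have one : ∀ {c d : List Prog × (ℕ → Word)}, step c = d → step^[1] c = d := fun h => h
  suffices H : ∃ n, n + 1 ≤ 2 * t ∧ step^[n] (p :: ks, s) = (ks, s') by
    obtain ⟨n, hn, e⟩ := H
    exact ⟨n, by omega, e⟩
  induction h generalizing ks with
  | skip s => exact ⟨1, by norm_num, rfl⟩
  | push s i b => exact ⟨1, by norm_num, rfl⟩
  | pop s i => exact ⟨1, by norm_num, rfl⟩
  | query_yes s i j hi => exact absurd hi (by simp)
  | query_no s i j hi => exact ⟨1, by norm_num, rfl⟩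
  | @seq p q s s' s'' t t' _ _ ih₁ ih₂ =>
    obtain ⟨n₁, hn₁, e₁⟩ := ih₁ (q :: ks)
    obtain ⟨n₂, hn₂, e₂⟩ := ih₂ ks
    refine ⟨n₂ + (n₁ + 1), by omega, ?_⟩
    rw [iterate_add_apply, iterate_add_apply _ n₁ 1]
    have e₀ : step^[1] (Prog.seq p q :: ks, s) = (p :: q :: ks, s) := rfl
    rw [e₀, e₁, e₂]
  | @ite_nil p q r s s' t i hi _ ih =>
    obtain ⟨n₁, hn₁, e₁⟩ := ih ks
    refine ⟨n₁ + 1, by omega, ?_⟩
    rw [iterate_add_apply]
    have e₀ : step^[1] (Prog.ite i p q r :: ks, s) = (p :: ks, s) := by
      simp [step, nx, app, hi]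
    rw [e₀, e₁]
  | @ite_false p q r s s' t i hi _ ih =>
    obtain ⟨n₁, hn₁, e₁⟩ := ih ks
    refine ⟨n₁ + 1, by omega, ?_⟩
    rw [iterate_add_apply]
    have e₀ : step^[1] (Prog.ite i p q r :: ks, s) = (q :: ks, s) := by
      simp [step, nx, app, hi]
    rw [e₀, e₁]
  | @ite_true p q r s s' t i hi _ ih =>
    obtain ⟨n₁, hn₁, e₁⟩ := ih ks
    refine ⟨n₁ + 1, by omega, ?_⟩
    rw [iterate_add_apply]
    have e₀ : step^[1] (Prog.ite i p q r :: ks, s) = (r :: ks, s) := by
      simp [step, nx, app, hi]
    rw [e₀, e₁]
  | @loop_stop p s i hi =>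
    refine ⟨1, by norm_num, ?_⟩
    simp [step, nx, app, hi]
  | @loop_step p s s' s'' t t' i hi _ _ ih₁ ih₂ =>
    obtain ⟨b, hb⟩ : ∃ b, (s i).head? = some b := by
      cases hs : s i with
      | nil => exact absurd hs hi
      | cons b w => exact ⟨b, by simp⟩
    obtain ⟨n₁, hn₁, e₁⟩ := ih₁ (.loop i p :: ks)
    obtain ⟨n₂, hn₂, e₂⟩ := ih₂ ks
    refine ⟨n₂ + (n₁ + 1), by omega, ?_⟩
    rw [iterate_add_apply, iterate_add_apply _ n₁ 1]
    have e₀ : step^[1] (Prog.loop i p :: ks, s) = (p :: .loop i p :: ks, s) := by
      simp [step, nx, app, hb]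
    rw [e₀, e₁, e₂]

/-! ### The continuations form a finite set -/

theorem nx_reach (top : ℕ → Option Bool) (p : Prog) (ks l : List Prog) (h : l ∈ reach p ks) :
    (nx top l).1 ∈ reach p ks ∨ (nx top l).1 = ks := by
  induction p generalizing ks with
  | skip => rw [reach, Set.mem_singleton_iff] at h; subst h; right; rfl
  | push i b => rw [reach, Set.mem_singleton_iff] at h; subst h; right; rfl
  | pop i => rw [reach, Set.mem_singleton_iff] at h; subst h; right; rfl
  | query i j => rw [reach, Set.mem_singleton_iff] at h; subst h; right; rfl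
  | seq p q ihp ihq =>
    rcases h with h | h | h
    · rw [Set.mem_singleton_iff] at h
      subst h
      exact Or.inl (Or.inr (Or.inl (self_mem_reach _ _)))
    · rcases ihp _ h with h' | h'
      · exact Or.inl (Or.inr (Or.inl h'))
      · rw [h']
        exact Or.inl (Or.inr (Or.inr (self_mem_reach _ _)))
    · rcases ihq _ h with h' | h'
      · exact Or.inl (Or.inr (Or.inr h'))
      · exact Or.inr h'
  | ite i p q r ihp ihq ihr =>
    rcases h with h | h | h | h
    · rw [Set.mem_singleton_iff] at h
      subst h
      left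
      rcases ht : top i with _ | (_ | _)
      · simp only [nx, ht]; exact Or.inr (Or.inl (self_mem_reach _ _))
      · simp only [nx, ht]; exact Or.inr (Or.inr (Or.inl (self_mem_reach _ _)))
      · simp only [nx, ht]; exact Or.inr (Or.inr (Or.inr (self_mem_reach _ _)))
    · rcases ihp _ h with h' | h'
      · exact Or.inl (Or.inr (Or.inl h'))
      · exact Or.inr h'
    · rcases ihq _ h with h' | h'
      · exact Or.inl (Or.inr (Or.inr (Or.inl h')))
      · exact Or.inr h'
    · rcases ihr _ h with h' | h'
      · exact Or.inl (Or.inr (Or.inr (Or.inr h')))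
      · exact Or.inr h'
  | loop i p ih =>
    rcases h with h | h
    · rw [Set.mem_singleton_iff] at h
      subst h
      rcases ht : top i with _ | b
      · right; simp only [nx, ht]
      · simp only [nx, ht]; exact Or.inl (Or.inr (self_mem_reach _ _))
    · rcases ih _ h with h' | h'
      · exact Or.inl (Or.inr h')
      · rw [h']
        exact Or.inl (Or.inl rfl)

/-- The continuations which occur when `p` is run. -/
def Conts (p : Prog) : Set (List Prog) := insert [] (reach p [])

theorem conts_finite (p : Prog) : (Conts p).Finite := (reach_finite p []).insert _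

theorem nil_mem_conts (p : Prog) : [] ∈ Conts p := Set.mem_insert _ _

theorem self_mem_conts (p : Prog) : [p] ∈ Conts p := Set.mem_insert_of_mem _ (self_mem_reach _ _)

theorem nx_mem_conts (top : ℕ → Option Bool) {p : Prog} {l : List Prog} (h : l ∈ Conts p) :
    (nx top l).1 ∈ Conts p := by
  rcases h with h | h
  · subst h
    exact nil_mem_conts p
  · rcases nx_reach top p [] l h with h' | h'
    · exact Set.mem_insert_of_mem _ h'
    · rw [h']
      exact nil_mem_conts p

/-! ### Stacks -/

/-- All stacks mentioned by the programs of a continuation are `< N`. -/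
def Bdd (N : ℕ) (l : List Prog) : Prop := ∀ p ∈ l, bounded N p

theorem bdd_nx {N : ℕ} (top : ℕ → Option Bool) {l : List Prog} (h : Bdd N l) :
    Bdd N (nx top l).1 := by
  rcases l with _ | ⟨p, ks⟩
  · exact h
  have hk : Bdd N ks := fun q hq => h q (List.mem_cons_of_mem _ hq)
  have hp := h p List.mem_cons_self
  have hc : ∀ {q : Prog} {l : List Prog}, bounded N q → Bdd N l → Bdd N (q :: l) := by
    intro q l h1 h2 r hr
    rcases List.mem_cons.1 hr with rfl | hr
    · exact h1
    · exact h2 r hr
  cases p with
  | skip => exact hk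
  | push i b => exact hk
  | pop i => exact hk
  | query i j => exact hk
  | seq p q => exact hc hp.1 (hc hp.2 hk)
  | ite i p q r =>
    rcases ht : top i with _ | (_ | _)
    · simp only [nx, ht]; exact hc hp.2.1 hk
    · simp only [nx, ht]; exact hc hp.2.2.1 hk
    · simp only [nx, ht]; exact hc hp.2.2.2 hk
  | loop i p =>
    rcases ht : top i with _ | b
    · simp only [nx, ht]; exact hk
    · simp only [nx, ht]; exact hc hp.2 (hc hp hk)

/-- The stack of the action. -/
theorem act_lt {N : ℕ} (top : ℕ → Option Bool) {l : List Prog} (h : Bdd N l) {i : ℕ}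
    {o : Option Bool} (ha : (nx top l).2 = some (i, o)) : i < N := by
  rcases l with _ | ⟨p, ks⟩
  · simp [nx] at ha
  have hp := h p List.mem_cons_self
  cases p with
  | skip => simp [nx] at ha
  | push j b => simp only [nx, Option.some.injEq, Prod.mk.injEq] at ha; rw [← ha.1]; exact hp
  | pop j => simp only [nx, Option.some.injEq, Prod.mk.injEq] at ha; rw [← ha.1]; exact hp
  | query j k => simp only [nx, Option.some.injEq, Prod.mk.injEq] at ha; rw [← ha.1]; exact hp.2
  | seq p q => simp [nx] at ha
  | ite i p q r => simp [nx] at ha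
  | loop i p => simp [nx] at ha

/-- The tops of the stacks `≥ N` do not matter. -/
theorem nx_congr {N : ℕ} {top top' : ℕ → Option Bool} {l : List Prog} (h : Bdd N l)
    (ht : ∀ i, i < N → top i = top' i) : nx top l = nx top' l := by
  rcases l with _ | ⟨p, ks⟩
  · rfl
  have hp := h p List.mem_cons_self
  cases p with
  | skip => rfl
  | push j b => rfl
  | pop j => rfl
  | query j k => rfl
  | seq p q => rfl
  | ite i p q r => simp only [nx, ht i hp.1]
  | loop i p => simp only [nx, ht i hp.1]

theorem app_length (a : Act) (s : ℕ → Word) (i : ℕ) : (app a s i).length ≤ (s i).length + 1 := by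
  rcases a with _ | ⟨j, _ | b⟩
  · simp [app]
  · simp only [app]
    rcases eq_or_ne i j with rfl | h
    · rw [update_self, List.length_tail]; omega
    · rw [update_of_ne h]; omega
  · simp only [app]
    rcases eq_or_ne i j with rfl | h
    · rw [update_self, List.length_cons]
    · rw [update_of_ne h]; omega

theorem iter_length (n : ℕ) (c : List Prog × (ℕ → Word)) (i : ℕ) :
    ((step^[n] c).2 i).length ≤ (c.2 i).length + n := by
  induction n with
  | zero => simp
  | succ n ih =>
    rw [iterate_succ_apply']
    have := app_length (nx (fun i => ((step^[n] c).2 i).head?) (step^[n] c).1).2 (step^[n] c).2 i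
    simp only [step] at *
    omega

theorem iter_length' {n : ℕ} {c : List Prog × (ℕ → Word)} {s' : ℕ → Word}
    (h : step^[n] c = ([], s')) (m t i : ℕ) (hm : (c.2 i).length ≤ m) :
    ((step^[t] c).2 i).length ≤ m + n := by
  rcases le_total t n with ht | ht
  · have := iter_length t c i
    omega
  · obtain ⟨k, rfl⟩ := Nat.exists_eq_add_of_le ht
    rw [Nat.add_comm, iterate_add_apply, h, iter_nil]
    have := iter_length n c i
    rw [h] at this
    simp only at this ⊢
    omega

end Vale.Agent.P330.H800
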