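import Vale.Agent.P330.H800.Small

/-!
# Tableaux

A `Tab k` is a finite alphabet with a local rule.  The cell in row `t + 1` and column `i` is
computed from its left neighbour and from the cells `i - 1`, `i`, `i + 1` of row `t`.  Row `0`
contains the `k` input words.
-/

namespace Vale.Agent.P330.H800

open Function Vale.Agent.Lib.PolyTime Vale.Agent.Lib.PolyTime.ToTM2

/-- A tableau with `k` input words. -/
structure Tab (k : ℕ) where
  /-- contents of a cell -/
  A : Type
  fA : Fintype A
  dA : DecidableEq A
  /-- row `0`: first column?, letters of the input words (`none` beyond the end) -/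
  init : Bool → (Fin k → Option Bool) → A
  /-- the other rows: first column?, last column?, left, up left, up, up right -/
  rule : Bool → Bool → A → A → A → A → A
  /-- in the first column the cells on the left do not matter -/
  rule_first : ∀ b l l' ul ul' u ur, rule true b l ul u ur = rule true b l' ul' u ur
  /-- in the last column the cell on the right does not matter -/
  rule_last : ∀ b l ul u ur ur', rule b true l ul u ur = rule b true l ul u ur'
  /-- letter of the output word -/
  out : A → Option Bool

attribute [instance] Tab.fA Tab.dA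

/-- The row below the row `p`, for the width `W`. -/
def Tab.row {k : ℕ} (τ : Tab k) (W : ℕ) (p : ℕ → τ.A) : ℕ → τ.A
  | 0 => τ.rule true (decide (1 = W)) (p 0) (p 0) (p 0) (p 1)
  | i + 1 => τ.rule false (decide (i + 2 = W)) (τ.row W p i) (p i) (p (i + 1)) (p (i + 2))

/-- The content of the cell in row `t` and column `i`. -/
def Tab.fill {k : ℕ} (τ : Tab k) (W : ℕ) (inp : Fin k → ℕ → Option Bool) : ℕ → ℕ → τ.A
  | 0 => fun i => τ.init (decide (i = 0)) fun d => inp d i
  | t + 1 => τ.row W (τ.fill W inp t)

section Sim

variable (M : ℕ) (p : Prog)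

/-- Contents of a cell: continuation, action which led to this row, letters of the stacks. -/
abbrev Al : Type := Conts p × Option (Fin M × Option Bool) × (Fin M → Option Bool)

noncomputable instance : Fintype (Conts p) := (conts_finite p).fintype

/-- The continuation of the next row. -/
noncomputable def stC (l : List Prog) : Conts p :=
  open Classical in if h : l ∈ Conts p then ⟨l, h⟩ else ⟨[], nil_mem_conts p⟩

theorem stC_of_mem {l : List Prog} (h : l ∈ Conts p) : stC p l = ⟨l, h⟩ := by
  simp [stC, h]

/-- A function on `Fin M` as a function on the natural numbers. -/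
def exN (g : Fin M → Option Bool) (i : ℕ) : Option Bool := if h : i < M then g ⟨i, h⟩ else none

/-- An action as an action on the stacks `< M`. -/
def exA : Act → Option (Fin M × Option Bool)
  | none => none
  | some (i, o) => if h : i < M then some (⟨i, h⟩, o) else none

/-- The new letter on the stack `j`. -/
def sym (first : Bool) (a : Option (Fin M × Option Bool)) (j : Fin M) (ul u ur : Option Bool) :
    Option Bool :=
  match a with
  | none => u
  | some (i, none) => if i = j then ur else u
  | some (i, some b) => if i = j then (if first then some b else ul) else u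

/-- continuation and action of the new cell -/
noncomputable def ctl (first : Bool) (l u : Al M p) :
    Conts p × Option (Fin M × Option Bool) :=
  if first then
    (stC p (nx (exN M u.2.2) u.1.1).1, exA M (nx (exN M u.2.2) u.1.1).2)
  else (l.1, l.2.1)

/-- The local rule. -/
noncomputable def ruleS (first last : Bool) (l ul u ur : Al M p) : Al M p :=
  ((ctl M p first l u).1, (ctl M p first l u).2, fun j =>
    sym M first (ctl M p first l u).2 j (ul.2.2 j) (u.2.2 j) (if last then none else ur.2.2 j))

/-- The content of the cell in the column `i`, in the configuration `c` reached by the action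
`a`. -/
noncomputable def cell (a : Act) (c : List Prog × (ℕ → Word)) (i : ℕ) : Al M p :=
  (stC p c.1, exA M a, fun j => (c.2 j)[i]?)

variable {M p}

theorem exN_head {s : ℕ → Word} {j : ℕ} (hj : j < M) :
    exN M (fun j : Fin M => (s j)[0]?) j = (s j).head? := by
  simp [exN, hj, List.head?_eq_getElem?]

theorem sym_app {a : Act} (ha : ∀ i o, a = some (i, o) → i < M) (s : ℕ → Word) (j : Fin M)
    (i : ℕ) : sym M (decide (i = 0)) (exA M a) j ((s j)[i - 1]?) ((s j)[i]?) ((s j)[i + 1]?) =
      (app a s j)[i]? := by
  rcases a with _ | ⟨k, o⟩
  · rfl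
  have hk := ha k o rfl
  rcases o with _ | b
  · simp only [exA, hk, dif_pos, sym, app]
    by_cases h : k = j
    · subst h
      rw [if_pos rfl, update_self]
      cases hs : s j with
      | nil => simp
      | cons x l => simp
    · rw [if_neg fun e => h (congrArg Fin.val e), update_of_ne fun e => h e.symm]
  · simp only [exA, hk, dif_pos, sym, app]
    by_cases h : k = j
    · subst h
      rw [if_pos rfl, update_self]
      cases i with
      | zero => simp
      | succ i => simp
    · rw [if_neg fun e => h (congrArg Fin.val e), update_of_ne fun e => h e.symm]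

/-- The action of a step. -/
def actOf (c : List Prog × (ℕ → Word)) : Act := (nx (fun i => (c.2 i).head?) c.1).2

/-- The action which led to the `t`-th configuration. -/
def preAct (c : List Prog × (ℕ → Word)) : ℕ → Act
  | 0 => none
  | t + 1 => actOf (step^[t] c)

theorem ctl_cell {c : List Prog × (ℕ → Word)} (hb : Bdd M c.1) (hc : c.1 ∈ Conts p)
    (l : Al M p) (a : Act) :
    ctl M p true l (cell M p a c 0) = (stC p (step c).1, exA M (actOf c)) := by
  have h1 : (cell M p a c 0).1.1 = c.1 := by
    simp only [cell, stC_of_mem p hc]
  have h2 : nx (exN M (cell M p a c 0).2.2) c.1 = nx (fun i => (c.2 i).head?) c.1 :=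
    nx_congr hb fun i hi => exN_head hi
  simp only [ctl, if_true, h1, h2, actOf, step]

/-- The row of a configuration is obtained from the row of the configuration before. -/
theorem rule_cell {c : List Prog × (ℕ → Word)} (hb : Bdd M c.1) (a : Act) {W : ℕ}
    (hW : ∀ j, (c.2 j).length ≤ W) (i : ℕ) (l : Al M p)
    (hl : ctl M p (decide (i = 0)) l (cell M p a c i) = (stC p (step c).1, exA M (actOf c))) :
    ruleS M p (decide (i = 0)) (decide (i + 1 = W)) l (cell M p a c (i - 1)) (cell M p a c i)
      (cell M p a c (i + 1)) = cell M p (actOf c) (step c) i := by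
  unfold ruleS
  rw [hl]
  refine Prod.ext rfl (Prod.ext rfl ?_)
  funext j
  have h1 : (if decide (i + 1 = W) = true then none else (cell M p a c (i + 1)).2.2 j) =
      (c.2 j)[i + 1]? := by
    by_cases h : i + 1 = W
    · rw [if_pos (by simpa using h)]
      symm
      rw [List.getElem?_eq_none_iff]
      exact (hW j).trans h.ge
    · rw [if_neg (by simpa using h)]
      rfl
  simp only [h1]
  exact sym_app (fun i o h => act_lt _ hb h) c.2 j i

variable (M p) in
/-- The tableau of the program `p` with `k ≤ M` input words and the stacks `0, …, M - 1`. -/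
noncomputable def tabOf (k : ℕ) (hM : 0 < M) : Tab k where
  A := Al M p
  fA := inferInstance
  dA := Classical.decEq _
  init _ x := (⟨[p], self_mem_conts p⟩, none, fun j => if h : (j : ℕ) < k then x ⟨j, h⟩ else none)
  rule := ruleS M p
  rule_first b l l' ul ul' u ur := by
    have h1 : ctl M p true l u = ctl M p true l' u := by simp [ctl]
    unfold ruleS
    rw [h1]
    refine Prod.ext rfl (Prod.ext rfl ?_)
    funext j
    simp only
    rcases (ctl M p true l' u).2 with _ | ⟨i, _ | b'⟩
    · rfl
    · rfl
    · simp [sym]
  rule_last b l ul u ur ur' := by simp [ruleS]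
  out a := a.2.2 ⟨0, hM⟩

variable {k : ℕ}

/-- the initial memory -/
def mem (s : Fin k → Word) (j : ℕ) : Word := if h : j < k then s ⟨j, h⟩ else []

theorem fill_eq (hM : 0 < M) (hb : bounded M p) (s : Fin k → Word)
    {W : ℕ} (hW : ∀ t j, ((step^[t] ([p], mem s)).2 j).length ≤ W) (t i : ℕ) :
    (tabOf M p k hM).fill W (fun d i => (s d)[i]?) t i =
      cell M p (preAct ([p], mem s) t) (step^[t] ([p], mem s)) i := by
  have hB : ∀ t, Bdd M (step^[t] ([p], mem s)).1 := by
    intro t
    induction t with
    | zero => intro q hq; rw [List.mem_singleton.1 hq]; exact hb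
    | succ t ih => rw [iterate_succ_apply']; exact bdd_nx _ ih
  have hC : ∀ t, (step^[t] ([p], mem s)).1 ∈ Conts p := by
    intro t
    induction t with
    | zero => exact self_mem_conts p
    | succ t ih => rw [iterate_succ_apply']; exact nx_mem_conts _ ih
  induction t generalizing i with
  | zero =>
    show ((⟨[p], self_mem_conts p⟩, none, _) : Al M p) = _
    unfold cell
    refine Prod.ext (by simp [stC_of_mem p (self_mem_conts p)]) (Prod.ext rfl ?_)
    funext j
    simp only [iterate_zero, id_eq, mem]
    by_cases h : (j : ℕ) < k
    · rw [dif_pos h, dif_pos h]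
    · rw [dif_neg h, dif_neg h]
      rfl
  | succ t ih =>
    set c := step^[t] ([p], mem s) with hc
    have e1 : step^[t + 1] ([p], mem s) = step c := iterate_succ_apply' _ _ _
    have e2 : preAct ([p], mem s) (t + 1) = actOf c := rfl
    rw [e1, e2]
    show (tabOf M p k hM).row W ((tabOf M p k hM).fill W (fun d i => (s d)[i]?) t) i = _
    have ih' : (tabOf M p k hM).fill W (fun d i => (s d)[i]?) t =
        cell M p (preAct ([p], mem s) t) c := funext ih
    rw [ih']
    induction i with
    | zero =>
      have h1 := ctl_cell (hB t) (hC t) (cell M p (preAct ([p], mem s) t) c 0)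
        (preAct ([p], mem s) t)
      have := rule_cell (hB t) (preAct ([p], mem s) t) (hW t) 0 _ h1
      exact this
    | succ i ihi =>
      have h1 : ctl M p (decide (i + 1 = 0)) (cell M p (actOf c) (step c) i)
          (cell M p (preAct ([p], mem s) t) c (i + 1)) = (stC p (step c).1, exA M (actOf c)) := by
        simp [ctl, cell]
      have h2 := rule_cell (hB t) (preAct ([p], mem s) t) (hW t) (i + 1) _ h1
      show (tabOf M p k hM).rule false (decide (i + 2 = W))
        ((tabOf M p k hM).row W (cell M p (preAct ([p], mem s) t) c) i) _ _ _ = _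
      rw [ihi]
      exact h2

/-- **The tableau computes the result of the program.** -/
theorem out_eq (hM : 0 < M) (hb : bounded M p) (s : Fin k → Word) {m T : ℕ} {s' : ℕ → Word}
    (hm : ∀ d, (s d).length ≤ m) (hT : ∃ t, t ≤ T ∧ Eval ∅ p (mem s) t s') {W t i : ℕ}
    (hW : m + 2 * T ≤ W) (ht : 2 * T ≤ t) :
    (tabOf M p k hM).out ((tabOf M p k hM).fill W (fun d i => (s d)[i]?) t i) = (s' 0)[i]? := by
  obtain ⟨t₀, ht₀, he⟩ := hT
  obtain ⟨n, hn, hs⟩ := sim he []
  have hm' : ∀ j, (mem s j).length ≤ m := by
    intro j
    unfold mem
    split_ifs with h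
    · exact hm _
    · simp
  rw [fill_eq hM hb s fun t' j =>
    (iter_length' hs m t' j (hm' j)).trans (by omega)]
  have h1 : step^[t] ([p], mem s) = ([], s') := by
    obtain ⟨r, rfl⟩ := Nat.exists_eq_add_of_le (show n ≤ t by omega)
    rw [Nat.add_comm, iterate_add_apply, hs, iter_nil]
  rw [h1]
  rfl

end Sim

end Vale.Agent.P330.H800
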